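import Mathlib

open MeasureTheory Finset

namespace Vale.Agent.P249

/-- Derandomised choice of sample points. -/
theorem exists_points {Ω : Type*} [MeasurableSpace Ω] (ν : Measure Ω) [IsProbabilityMeasure ν]
    {I : Type*} [Fintype I] (g : I → Ω → ℝ) (hg0 : ∀ i ω, 0 ≤ g i ω)
    (hint : ∀ i, Integrable (g i) ν) (hle : ∀ i, ∫ ω, g i ω ∂ν ≤ 1) (N : ℕ) :
    ∃ ω : Fin N → Ω, ∑ i, ∏ k, g i (ω k) ≤ (Fintype.card I : ℝ) := by
  induction N with
  | zero =>
    refine ⟨fun k => k.elim0, ?_⟩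
    simp
  | succ N ih =>
    obtain ⟨ω, hω⟩ := ih
    have hI : Integrable (fun a => ∑ i, (∏ k, g i (ω k)) * g i a) ν :=
      integrable_finsetSum _ fun i _ => (hint i).const_mul _
    obtain ⟨a, ha⟩ := exists_le_integral hI
    refine ⟨Fin.cons a ω, ?_⟩
    have h1 : ∀ i, ∏ k, g i ((Fin.cons a ω : Fin (N + 1) → Ω) k) = (∏ k, g i (ω k)) * g i a := by
      intro i
      rw [Fin.prod_univ_succ, mul_comm]
      simp
    simp_rw [h1]
    refine ha.trans ?_
    rw [integral_finsetSum _ fun i _ => (hint i).const_mul _]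
    refine le_trans ?_ hω
    apply Finset.sum_le_sum
    intro i _
    rw [integral_const_mul]
    have h2 : 0 ≤ ∏ k, g i (ω k) := Finset.prod_nonneg fun k _ => hg0 i _
    calc (∏ k, g i (ω k)) * ∫ a, g i a ∂ν ≤ (∏ k, g i (ω k)) * 1 :=
          mul_le_mul_of_nonneg_left (hle i) h2
      _ = _ := mul_one _

theorem exp_le_lin {θ S y : ℝ} (hS : 0 < S) (hy0 : 0 ≤ y) (hyS : y ≤ S) :
    Real.exp (θ / S * y) ≤ 1 + y / S * (Real.exp θ - 1) := by
  have ha : (0 : ℝ) ≤ 1 - y / S := by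
    rw [sub_nonneg, div_le_one hS]
    exact hyS
  have hb : (0 : ℝ) ≤ y / S := by positivity
  have h := convexOn_exp.2 (Set.mem_univ (0 : ℝ)) (Set.mem_univ θ) ha hb (by ring)
  simp only [smul_eq_mul, mul_zero, zero_add, Real.exp_zero, mul_one] at h
  have h2 : y / S * θ = θ / S * y := by ring
  rw [h2] at h
  linarith

/-- All averages are simultaneously close to one. -/
theorem exists_sample {Ω : Type*} [MeasurableSpace Ω] (ν : Measure Ω) [IsProbabilityMeasure ν]
    {I : Type*} [Fintype I] [Nonempty I] (Y : I → Ω → ℝ) {S θ : ℝ} (hS : 0 < S) (hθ : 0 < θ)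
    (hθ1 : θ ≤ 1) (hY0 : ∀ i ω, 0 ≤ Y i ω) (hYS : ∀ i ω, Y i ω ≤ S)
    (hint : ∀ i, Integrable (Y i) ν) (hone : ∀ i, ∫ ω, Y i ω ∂ν = 1) (N : ℕ)
    (hN : S * Real.log (2 * Fintype.card I) ≤ θ ^ 2 * N) :
    ∃ ω : Fin N → Ω, ∀ i, (1 - 2 * θ) * N ≤ ∑ k, Y i (ω k) ∧
      ∑ k, Y i (ω k) ≤ (1 + 2 * θ) * N := by
  -- the two families of exponential weights
  let σ : Bool → ℝ := fun b => if b then θ else -θ
  let c : Bool → ℝ := fun b => (Real.exp (σ b) - 1) / S
  let g : I × Bool → Ω → ℝ := fun e ω => Real.exp (σ e.2 / S * Y e.1 ω) * Real.exp (-(c e.2))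
  have hg0 : ∀ e ω, 0 ≤ g e ω := fun e ω => by positivity
  have hmeas : ∀ e : I × Bool, AEStronglyMeasurable (fun ω => Real.exp (σ e.2 / S * Y e.1 ω)) ν := by
    intro e
    exact Real.continuous_exp.comp_aestronglyMeasurable ((hint e.1).1.const_mul _)
  have hbd : ∀ e : I × Bool, ∀ ω,
      Real.exp (σ e.2 / S * Y e.1 ω) ≤ 1 + Y e.1 ω / S * (Real.exp (σ e.2) - 1) :=
    fun e ω => exp_le_lin hS (hY0 _ _) (hYS _ _)
  have hint2 : ∀ e : I × Bool, Integrable (fun ω => 1 + Y e.1 ω / S * (Real.exp (σ e.2) - 1)) ν :=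
    fun e => (integrable_const _).add (((hint e.1).div_const _).mul_const _)
  have hint1 : ∀ e : I × Bool, Integrable (fun ω => Real.exp (σ e.2 / S * Y e.1 ω)) ν := by
    intro e
    apply (hint2 e).mono' (hmeas e)
    apply Filter.Eventually.of_forall
    intro ω
    rw [Real.norm_eq_abs, abs_of_pos (Real.exp_pos _)]
    exact hbd e ω
  have hgint : ∀ e, Integrable (g e) ν := fun e => (hint1 e).mul_const _
  have hgle : ∀ e, ∫ ω, g e ω ∂ν ≤ 1 := by
    intro e
    have h1 : ∫ ω, Real.exp (σ e.2 / S * Y e.1 ω) ∂ν ≤ 1 + c e.2 := by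
      refine (integral_mono (hint1 e) (hint2 e) (hbd e)).trans ?_
      rw [integral_add (integrable_const _) (((hint e.1).div_const _).mul_const _),
        integral_mul_const, integral_div, hone]
      simp only [integral_const, probReal_univ, smul_eq_mul, mul_one, c]
      apply le_of_eq
      ring
    have h2 : 1 + c e.2 ≤ Real.exp (c e.2) := by
      have := Real.add_one_le_exp (c e.2)
      linarith
    show ∫ ω, Real.exp (σ e.2 / S * Y e.1 ω) * Real.exp (-(c e.2)) ∂ν ≤ 1
    rw [integral_mul_const]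
    calc _ ≤ Real.exp (c e.2) * Real.exp (-(c e.2)) := by
          apply mul_le_mul_of_nonneg_right (h1.trans h2) (Real.exp_pos _).le
      _ = 1 := by rw [← Real.exp_add, add_neg_cancel, Real.exp_zero]
  obtain ⟨ω, hω⟩ := exists_points ν g hg0 hgint hgle N
  have hcardI : (Fintype.card (I × Bool) : ℝ) = 2 * Fintype.card I := by
    rw [Fintype.card_prod, Fintype.card_bool]
    push_cast
    ring
  rw [hcardI] at hω
  have hm : (0 : ℝ) < 2 * Fintype.card I := by
    have : 0 < Fintype.card I := Fintype.card_pos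
    positivity
  have hmain : ∀ e : I × Bool, σ e.2 / S * ∑ k, Y e.1 (ω k) - c e.2 * N ≤
      Real.log (2 * Fintype.card I) := by
    intro e
    have h1 : ∏ k, g e (ω k) ≤ 2 * Fintype.card I := by
      refine le_trans ?_ hω
      exact Finset.single_le_sum (f := fun e => ∏ k, g e (ω k))
        (fun e _ => Finset.prod_nonneg fun k _ => hg0 e _) (Finset.mem_univ e)
    have h2 : ∏ k, g e (ω k) = Real.exp (σ e.2 / S * ∑ k, Y e.1 (ω k) - c e.2 * N) := by
      show ∏ k, (Real.exp (σ e.2 / S * Y e.1 (ω k)) * Real.exp (-(c e.2))) = _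
      rw [Finset.prod_mul_distrib, ← Real.exp_sum, Finset.prod_const, ← Real.exp_nat_mul,
        ← Real.exp_add, Finset.mul_sum, Finset.card_univ, Fintype.card_fin]
      congr 1
      ring
    rw [h2] at h1
    exact (Real.le_log_iff_exp_le hm).2 h1
  refine ⟨ω, fun i => ?_⟩
  have hT := hmain (i, true)
  have hF := hmain (i, false)
  simp only [σ, c, if_true, Bool.false_eq_true, if_false] at hT hF
  set L := Real.log (2 * Fintype.card I) with hL
  set T := ∑ k, Y i (ω k) with hTdef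
  have e1 : |Real.exp θ - 1 - θ| ≤ θ ^ 2 := Real.abs_exp_sub_one_sub_id_le (by
    rw [abs_of_pos hθ]; exact hθ1)
  have e2 : |Real.exp (-θ) - 1 - (-θ)| ≤ (-θ) ^ 2 := Real.abs_exp_sub_one_sub_id_le (by
    rw [abs_neg, abs_of_pos hθ]; exact hθ1)
  have e1' := (abs_le.1 e1).2
  have e2' := (abs_le.1 e2).2
  have hN0 : (0 : ℝ) ≤ N := Nat.cast_nonneg N
  constructor
  · -- lower bound
    have h1 : -θ * T - (Real.exp (-θ) - 1) * N ≤ S * L := by
      have h3 : (-θ / S * T - (Real.exp (-θ) - 1) / S * N) * S ≤ L * S :=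
        mul_le_mul_of_nonneg_right hF hS.le
      have h4 : (-θ / S * T - (Real.exp (-θ) - 1) / S * N) * S =
          -θ * T - (Real.exp (-θ) - 1) * N := by
        field_simp
      rw [h4] at h3
      linarith
    have h2 : (Real.exp (-θ) - 1) * N ≤ (-θ + θ ^ 2) * N :=
      mul_le_mul_of_nonneg_right (by nlinarith) hN0
    have h5 : θ * ((1 - 2 * θ) * N) ≤ θ * T := by nlinarith
    exact le_of_mul_le_mul_left h5 hθ
  · have h1 : θ * T - (Real.exp θ - 1) * N ≤ S * L := by
      have h3 : (θ / S * T - (Real.exp θ - 1) / S * N) * S ≤ L * S :=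
        mul_le_mul_of_nonneg_right hT hS.le
      have h4 : (θ / S * T - (Real.exp θ - 1) / S * N) * S =
          θ * T - (Real.exp θ - 1) * N := by
        field_simp
      rw [h4] at h3
      linarith
    have h2 : (Real.exp θ - 1) * N ≤ (θ + θ ^ 2) * N :=
      mul_le_mul_of_nonneg_right (by nlinarith) hN0
    have h5 : θ * T ≤ θ * ((1 + 2 * θ) * N) := by nlinarith
    exact le_of_mul_le_mul_left h5 hθ

end Vale.Agent.P249
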