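import Vale.Agent.P249.Metric
import Vale.Agent.P249.Sample

open MeasureTheory Finset

namespace Vale.Agent.P249

variable {ι : Type*} [Fintype ι] [DecidableEq ι] {Ω : Type*} [MeasurableSpace Ω]

section first

variable (μ : Measure Ω) {q : ℝ} (hq : 0 < q) (x : ι → Ω → ℝ) (hx : ∀ i, Measurable (x i))
    (d : ι → ι → ℝ) (hii : ∀ a, d a a = 0) (hsym : ∀ a b, d a b = d b a)
    (htri : ∀ a b c, d a c ≤ d a b + d b c) (hpos : ∀ a b, a ≠ b → 0 < d a b)
    (hint : ∀ a b, Integrable (fun ω => |x a ω - x b ω| ^ q) μ)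
    (hdq : ∀ a b, ∫ ω, |x a ω - x b ω| ^ q ∂μ = d a b ^ q)

/-- the density used for sampling -/
noncomputable def dens (q A : ℝ) (x : ι → Ω → ℝ) (d : ι → ι → ℝ) (ω : Ω) : ℝ :=
  A * ∑ a, locEn d q (fun i => x i ω) a

include hx in
theorem meas_diff (a b : ι) : Measurable (fun ω => |x a ω - x b ω| ^ q) :=
  (((hx a).sub (hx b)).norm).pow_const q

include hx in
theorem dens_meas (A : ℝ) : Measurable (dens q A x d) := by
  unfold dens
  apply Measurable.const_mul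
  apply Finset.measurable_fun_sum
  intro a _
  unfold locEn
  apply Finset.measurable_fun_sum
  intro b _
  exact (meas_diff x hx a b).div_const _

include hint in
theorem dens_int (A : ℝ) : Integrable (dens q A x d) μ := by
  unfold dens
  apply Integrable.const_mul
  apply integrable_finsetSum
  intro a _
  unfold locEn
  apply integrable_finsetSum
  intro b _
  exact (hint a b).div_const _

include hint hdq hpos in
theorem dens_val (A : ℝ) : ∫ ω, dens q A x d ω ∂μ =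
    A * ∑ a : ι, ∑ b ∈ univ.filter (fun b => b ≠ a),
      (1 : ℝ) / ((ball d a (d a b)).card : ℝ) := by
  unfold dens
  rw [integral_const_mul, integral_finsetSum]
  · congr 1
    apply Finset.sum_congr rfl
    intro a _
    unfold locEn
    rw [integral_finsetSum]
    · apply Finset.sum_congr rfl
      intro b hb
      rw [integral_div, hdq]
      have hab : 0 < d a b := hpos a b (Ne.symm (Finset.mem_filter.1 hb).2)
      have h1 : 0 < d a b ^ q := Real.rpow_pos_of_pos hab q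
      have h2 : 0 < ((ball d a (d a b)).card : ℝ) := by
        exact_mod_cast Finset.card_pos.2 ⟨b, mem_ball.2 le_rfl⟩
      field_simp
    · intro b _
      exact (hint a b).div_const _
  · intro a _
    unfold locEn
    apply integrable_finsetSum
    intro b _
    exact (hint a b).div_const _

end first

section second

variable (μ : Measure Ω) {q : ℝ} (x : ι → Ω → ℝ) (d : ι → ι → ℝ) (s : Ω → ℝ) (S : ℝ)

/-- the normalised functions -/
noncomputable def YY (q : ℝ) (x : ι → Ω → ℝ) (d : ι → ι → ℝ) (s : Ω → ℝ) (S : ℝ)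
    (e : ι × ι) (ω : Ω) : ℝ :=
  if e.1 = e.2 then 1 else S * |x e.1 ω - x e.2 ω| ^ q / (s ω * d e.1 e.2 ^ q)

theorem YY_nonneg (hs0 : ∀ ω, 0 ≤ s ω) (hd0 : ∀ a b, 0 ≤ d a b) (hS0 : 0 < S) (e : ι × ι)
    (ω : Ω) : 0 ≤ YY q x d s S e ω := by
  unfold YY
  split_ifs
  · exact zero_le_one
  · have := hs0 ω
    have := hd0 e.1 e.2
    positivity

theorem YY_le {Sb : ℝ} (hs0 : ∀ ω, 0 ≤ s ω) (hpos : ∀ a b, a ≠ b → 0 < d a b) (hS1 : 1 ≤ S)
    (hSSb : S ≤ Sb) (hkey : ∀ ω i j, i ≠ j → |x i ω - x j ω| ^ q ≤ d i j ^ q * s ω)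
    (e : ι × ι) (ω : Ω) : YY q x d s S e ω ≤ Sb := by
  unfold YY
  split_ifs with h
  · linarith
  · refine le_trans ?_ hSSb
    have hS0 : 0 < S := by linarith
    have hd1 : 0 < d e.1 e.2 ^ q := Real.rpow_pos_of_pos (hpos _ _ h) q
    rcases (hs0 ω).eq_or_lt with h0 | h0
    · rw [← h0, zero_mul, div_zero]
      exact hS0.le
    · rw [div_le_iff₀ (by positivity)]
      have := hkey ω e.1 e.2 h
      nlinarith

theorem YY_mul (hs0 : ∀ ω, 0 ≤ s ω) (hpos : ∀ a b, a ≠ b → 0 < d a b) (hS0 : 0 < S)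
    (hkey : ∀ ω i j, i ≠ j → |x i ω - x j ω| ^ q ≤ d i j ^ q * s ω)
    (e : ι × ι) (h : e.1 ≠ e.2) (ω : Ω) :
    s ω / S * YY q x d s S e ω = |x e.1 ω - x e.2 ω| ^ q / d e.1 e.2 ^ q := by
  have hd1 : 0 < d e.1 e.2 ^ q := Real.rpow_pos_of_pos (hpos _ _ h) q
  unfold YY
  rw [if_neg h]
  rcases (hs0 ω).eq_or_lt with h0 | h0
  · have h1 := hkey ω e.1 e.2 h
    rw [← h0, mul_zero] at h1
    have h2 : 0 ≤ |x e.1 ω - x e.2 ω| ^ q := by positivity
    rw [le_antisymm h1 h2, ← h0]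
    simp
  · field_simp

/-- the sampling measure -/
noncomputable def nu (μ : Measure Ω) (s : Ω → ℝ) (S : ℝ) : Measure Ω :=
  μ.withDensity (fun ω => ENNReal.ofReal (s ω / S))

theorem nu_prob (hsI : Integrable s μ) (hs0 : ∀ ω, 0 ≤ s ω) (hS0 : 0 < S)
    (hS : ∫ ω, s ω ∂μ = S) : IsProbabilityMeasure (nu μ s S) := by
  constructor
  unfold nu
  rw [withDensity_apply _ MeasurableSet.univ, Measure.restrict_univ]
  rw [← ofReal_integral_eq_lintegral_ofReal (hsI.div_const _)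
    (Filter.Eventually.of_forall fun ω => div_nonneg (hs0 ω) hS0.le), integral_div, hS,
    div_self hS0.ne', ENNReal.ofReal_one]

theorem YY_int (hsm : Measurable s) (hs0 : ∀ ω, 0 ≤ s ω) (hpos : ∀ a b, a ≠ b → 0 < d a b)
    (hS0 : 0 < S) (hkey : ∀ ω i j, i ≠ j → |x i ω - x j ω| ^ q ≤ d i j ^ q * s ω)
    (hint : ∀ a b, Integrable (fun ω => |x a ω - x b ω| ^ q) μ)
    (hdq : ∀ a b, ∫ ω, |x a ω - x b ω| ^ q ∂μ = d a b ^ q) (hp : IsProbabilityMeasure (nu μ s S))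
    (e : ι × ι) :
    Integrable (YY q x d s S e) (nu μ s S) ∧ ∫ ω, YY q x d s S e ω ∂(nu μ s S) = 1 := by
  have hρm : Measurable (fun ω => ENNReal.ofReal (s ω / S)) :=
    (hsm.div_const _).ennreal_ofReal
  have hρtop : ∀ᵐ ω ∂μ, ENNReal.ofReal (s ω / S) < ⊤ :=
    Filter.Eventually.of_forall fun ω => ENNReal.ofReal_lt_top
  have hρr : ∀ ω, (ENNReal.ofReal (s ω / S)).toReal = s ω / S := fun ω =>
    ENNReal.toReal_ofReal (div_nonneg (hs0 ω) hS0.le)
  by_cases h : e.1 = e.2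
  · have h1 : YY q x d s S e = fun _ => (1 : ℝ) := by
      funext ω
      unfold YY
      rw [if_pos h]
    rw [h1]
    refine ⟨integrable_const _, ?_⟩
    simp
  · have h1 : (fun ω => (ENNReal.ofReal (s ω / S)).toReal • YY q x d s S e ω) =
        fun ω => |x e.1 ω - x e.2 ω| ^ q / d e.1 e.2 ^ q := by
      funext ω
      rw [hρr, smul_eq_mul, YY_mul x d s S hs0 hpos hS0 hkey e h]
    constructor
    · unfold nu
      rw [integrable_withDensity_iff_integrable_smul' hρm hρtop, h1]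
      exact (hint _ _).div_const _
    · unfold nu
      rw [integral_withDensity_eq_integral_toReal_smul hρm hρtop, h1, integral_div, hdq, div_self]
      exact (Real.rpow_pos_of_pos (hpos _ _ h) q).ne'

theorem core2 [Nonempty ι] (hq : 0 < q) (hsm : Measurable s) (hsI : Integrable s μ)
    (hs0 : ∀ ω, 0 ≤ s ω)
    (hpos : ∀ a b, a ≠ b → 0 < d a b) (hii : ∀ a, d a a = 0)
    (hkey : ∀ ω i j, i ≠ j → |x i ω - x j ω| ^ q ≤ d i j ^ q * s ω)
    (hint : ∀ a b, Integrable (fun ω => |x a ω - x b ω| ^ q) μ)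
    (hdq : ∀ a b, ∫ ω, |x a ω - x b ω| ^ q ∂μ = d a b ^ q) (hS : ∫ ω, s ω ∂μ = S)
    (hS1 : 1 ≤ S) {Sb : ℝ} (hSSb : S ≤ Sb)
    {θ : ℝ} (hθ : 0 < θ) (hθ1 : θ ≤ 1) {N : ℕ} (hN0 : 0 < N)
    (hN : Sb * Real.log (2 * Fintype.card (ι × ι)) ≤ θ ^ 2 * N) :
    ∃ (ω : Fin N → Ω) (c : Fin N → ℝ), (∀ k, 0 ≤ c k) ∧ ∀ a b,
      (1 - 2 * θ) * d a b ^ q ≤ ∑ k, c k * |x a (ω k) - x b (ω k)| ^ q ∧
      ∑ k, c k * |x a (ω k) - x b (ω k)| ^ q ≤ (1 + 2 * θ) * d a b ^ q := by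
  have hS0 : 0 < S := by linarith
  have hSb0 : 0 < Sb := by linarith
  have hd0 : ∀ a b, 0 ≤ d a b := by
    intro a b
    rcases eq_or_ne a b with rfl | h
    · rw [hii]
    · exact (hpos a b h).le
  have hνp := nu_prob μ s S hsI hs0 hS0 hS
  obtain ⟨ω, hω⟩ := exists_sample (nu μ s S) (YY q x d s S) hSb0 hθ hθ1
    (YY_nonneg x d s S hs0 hd0 hS0) (YY_le x d s S hs0 hpos hS1 hSSb hkey)
    (fun e => (YY_int μ x d s S hsm hs0 hpos hS0 hkey hint hdq hνp e).1)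
    (fun e => (YY_int μ x d s S hsm hs0 hpos hS0 hkey hint hdq hνp e).2) N hN
  have hNpos : (0 : ℝ) < N := by exact_mod_cast hN0
  refine ⟨ω, fun k => S / (N * s (ω k)), fun k => ?_, fun a b => ?_⟩
  · have := hs0 (ω k)
    positivity
  · rcases eq_or_ne a b with rfl | hab
    · simp [hii, Real.zero_rpow hq.ne']
    · have hd1 : 0 < d a b ^ q := Real.rpow_pos_of_pos (hpos _ _ hab) q
      have h1 : ∑ k, S / (N * s (ω k)) * |x a (ω k) - x b (ω k)| ^ q =
          d a b ^ q / N * ∑ k, YY q x d s S (a, b) (ω k) := by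
        rw [Finset.mul_sum]
        apply Finset.sum_congr rfl
        intro k _
        unfold YY
        rw [if_neg hab]
        rcases (hs0 (ω k)).eq_or_lt with h0 | h0
        · rw [← h0]
          simp
        · field_simp
      rw [h1]
      obtain ⟨h2, h3⟩ := hω (a, b)
      constructor
      · calc (1 - 2 * θ) * d a b ^ q = d a b ^ q / N * ((1 - 2 * θ) * N) := by field_simp
          _ ≤ _ := mul_le_mul_of_nonneg_left h2 (by positivity)
      · calc d a b ^ q / N * ∑ k, YY q x d s S (a, b) (ω k)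
            ≤ d a b ^ q / N * ((1 + 2 * θ) * N) :=
              mul_le_mul_of_nonneg_left h3 (by positivity)
          _ = _ := by field_simp

end second

/-- Sampling coordinates from a finite subset of an `L_q` space: abstract form. -/
theorem core (μ : Measure Ω) {q : ℝ} (hq : 0 < q) (x : ι → Ω → ℝ) (hx : ∀ i, Measurable (x i))
    (d : ι → ι → ℝ) (hii : ∀ a, d a a = 0) (hsym : ∀ a b, d a b = d b a)
    (htri : ∀ a b c, d a c ≤ d a b + d b c) (hpos : ∀ a b, a ≠ b → 0 < d a b)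
    (hint : ∀ a b, Integrable (fun ω => |x a ω - x b ω| ^ q) μ)
    (hdq : ∀ a b, ∫ ω, |x a ω - x b ω| ^ q ∂μ = d a b ^ q)
    {K : ℕ} (hK : Fintype.card ι ≤ 2 ^ K) (hK0 : 0 < K) (hcard : 2 ≤ Fintype.card ι)
    {θ : ℝ} (hθ : 0 < θ) (hθ1 : θ ≤ 1) {N : ℕ} (hN0 : 0 < N)
    (hN : 2 * (4 * (K : ℝ)) ^ q * (Fintype.card ι * (1 + Real.log (Fintype.card ι))) *
      Real.log (2 * Fintype.card (ι × ι)) ≤ θ ^ 2 * N) :
    ∃ (ω : Fin N → Ω) (c : Fin N → ℝ), (∀ k, 0 ≤ c k) ∧ ∀ a b,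
      (1 - 2 * θ) * d a b ^ q ≤ ∑ k, c k * |x a (ω k) - x b (ω k)| ^ q ∧
      ∑ k, c k * |x a (ω k) - x b (ω k)| ^ q ≤ (1 + 2 * θ) * d a b ^ q := by
  have hKpos : (0 : ℝ) < K := by exact_mod_cast hK0
  have hA0 : 0 < 2 * (4 * (K : ℝ)) ^ q := by positivity
  have hd0 : ∀ a b, 0 ≤ d a b := by
    intro a b
    rcases eq_or_ne a b with rfl | h
    · rw [hii]
    · exact (hpos a b h).le
  have hs0 : ∀ ω, 0 ≤ dens q (2 * (4 * (K : ℝ)) ^ q) x d ω := fun ω => mul_nonneg hA0.le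
    (Finset.sum_nonneg fun a _ => locEn_nonneg hd0 _ a)
  have hkey : ∀ ω i j, i ≠ j →
      |x i ω - x j ω| ^ q ≤ d i j ^ q * dens q (2 * (4 * (K : ℝ)) ^ q) x d ω := by
    intro ω i j hij
    have h := key_ineq (d := d) hq hii hsym htri hpos hK hK0 (fun i => x i ω) hij
    calc |x i ω - x j ω| ^ q
        ≤ 2 * (4 * (K : ℝ)) ^ q * d i j ^ q * ∑ a, locEn d q (fun i => x i ω) a := h
      _ = _ := by unfold dens; ring
  have hsm := dens_meas (q := q) x hx d (2 * (4 * (K : ℝ)) ^ q)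
  have hsI := dens_int (q := q) μ x d hint (2 * (4 * (K : ℝ)) ^ q)
  have hcard1 : 1 < Fintype.card ι := by omega
  obtain ⟨i0, j0, hij0⟩ := Fintype.one_lt_card_iff.1 hcard1
  have hne : Nonempty ι := ⟨i0⟩
  refine core2 μ x d (dens q (2 * (4 * (K : ℝ)) ^ q) x d)
    (∫ ω, dens q (2 * (4 * (K : ℝ)) ^ q) x d ω ∂μ) hq hsm hsI hs0 hpos hii hkey hint hdq rfl
    ?_ ?_ hθ hθ1 hN0 hN
  · have h0 : 0 < d i0 j0 ^ q := Real.rpow_pos_of_pos (hpos _ _ hij0) q
    have h1 : d i0 j0 ^ q ≤ d i0 j0 ^ q * ∫ ω, dens q (2 * (4 * (K : ℝ)) ^ q) x d ω ∂μ := by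
      calc d i0 j0 ^ q = ∫ ω, |x i0 ω - x j0 ω| ^ q ∂μ := (hdq i0 j0).symm
        _ ≤ ∫ ω, d i0 j0 ^ q * dens q (2 * (4 * (K : ℝ)) ^ q) x d ω ∂μ :=
            integral_mono (hint i0 j0) (hsI.const_mul _) (fun ω => hkey ω i0 j0 hij0)
        _ = _ := integral_const_mul _ _
    by_contra hcon
    push Not at hcon
    nlinarith
  · rw [dens_val μ x d hpos hint hdq]
    exact mul_le_mul_of_nonneg_left (weight_sum_le d) hA0.le

end Vale.Agent.P249
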