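import Mathlib

open MeasureTheory
open scoped ENNReal

universe u

namespace Vale.Agent.P249

/-- The map `f` has distortion at most `D` on the set `X`: for some scale `s > 0`,
`s · dist x y ≤ dist (f x) (f y) ≤ D · s · dist x y` for all `x, y ∈ X`. -/
def DistortionLE {E F : Type*} [Dist E] [Dist F] (X : Set E) (f : E → F) (D : ℝ) : Prop :=
  ∃ s : ℝ, 0 < s ∧ ∀ x ∈ X, ∀ y ∈ X,
    s * dist x y ≤ dist (f x) (f y) ∧ dist (f x) (f y) ≤ D * s * dist x y

/-- Every `n`-point subset of every real `L_p(μ)` space (over any measure space) admits a map into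
`ℓ_p^m` with distortion at most `D`. -/
def DimSuffices (p : ℝ≥0∞) [Fact (1 ≤ p)] (n : ℕ) (D : ℝ) (m : ℕ) : Prop :=
  ∀ (Ω : Type u) [MeasurableSpace Ω] (μ : Measure Ω) (X : Finset (Lp ℝ p μ)), X.card = n →
    ∃ f : Lp ℝ p μ → PiLp p (fun _ : Fin m => ℝ), DistortionLE (X : Set (Lp ℝ p μ)) f D

/-- `d_p(n, D)`: the least dimension that suffices. -/
noncomputable def dimLp (p : ℝ≥0∞) [Fact (1 ≤ p)] (n : ℕ) (D : ℝ) : ℕ :=
  sInf {m : ℕ | DimSuffices.{u} p n D m}

end Vale.Agent.P249
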