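import Vale.Agent.P249.Core
import Vale.Agent.P249.Defs

open MeasureTheory Finset
open scoped ENNReal

universe u

namespace Vale.Agent.P249

theorem Lp_dist_rpow {Ω : Type*} [MeasurableSpace Ω] {μ : Measure Ω} {p : ℝ≥0∞}
    [hp1 : Fact (1 ≤ p)] (hp : p ≠ ⊤) (a b : Lp ℝ p μ) :
    Integrable (fun ω => |a ω - b ω| ^ p.toReal) μ ∧
      ∫ ω, |a ω - b ω| ^ p.toReal ∂μ = dist a b ^ p.toReal := by
  have hp0 : p ≠ 0 := (zero_lt_one.trans_le hp1.out).ne'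
  have hq : 0 < p.toReal := ENNReal.toReal_pos hp0 hp
  have h1 : (fun ω => ‖(a - b : Lp ℝ p μ) ω‖ ^ p.toReal) =ᵐ[μ]
      fun ω => |a ω - b ω| ^ p.toReal := by
    filter_upwards [Lp.coeFn_sub a b] with ω hω
    rw [hω, Pi.sub_apply, Real.norm_eq_abs]
  have hm : MemLp (a - b : Lp ℝ p μ) p μ := Lp.memLp _
  refine ⟨(hm.integrable_norm_rpow hp0 hp).congr h1, ?_⟩
  rw [← integral_congr_ae h1, dist_eq_norm, Lp.norm_def,
    hm.eLpNorm_eq_integral_rpow_norm hp0 hp]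
  have h0 : 0 ≤ ∫ ω, ‖(a - b : Lp ℝ p μ) ω‖ ^ p.toReal ∂μ := integral_nonneg fun ω => by positivity
  rw [ENNReal.toReal_ofReal (by positivity), ← Real.rpow_mul h0, inv_mul_cancel₀ hq.ne',
    Real.rpow_one]

theorem dimSuffices_of {p : ℝ≥0∞} [hp1 : Fact (1 ≤ p)] (hp : p ≠ ⊤) {D : ℝ} (hD : 1 < D) {n : ℕ}
    (hn : 2 ≤ n) {K : ℕ} (hK : n ≤ 2 ^ K) (hK0 : 0 < K) {θ : ℝ} (hθ : 0 < θ) (hθ1 : θ ≤ 1 / 4)
    (hθD : 1 + 2 * θ ≤ D ^ p.toReal * (1 - 2 * θ)) {N : ℕ} (hN0 : 0 < N)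
    (hN : 2 * (4 * (K : ℝ)) ^ p.toReal * (n * (1 + Real.log n)) *
      Real.log (2 * (n * n)) ≤ θ ^ 2 * N) :
    DimSuffices.{u} p n D N := by
  intro Ω _ μ X hX
  classical
  have hp0 : p ≠ 0 := (zero_lt_one.trans_le hp1.out).ne'
  have hq : 0 < p.toReal := ENNReal.toReal_pos hp0 hp
  have hcard : Fintype.card X = n := by rw [Fintype.card_coe, hX]
  obtain ⟨ω, c, hc, h⟩ := core μ hq (fun (i : X) ω => (i : Lp ℝ p μ) ω)
    (fun i => (Lp.stronglyMeasurable (i : Lp ℝ p μ)).measurable)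
    (fun a b => dist (a : Lp ℝ p μ) b) (fun a => dist_self _) (fun a b => dist_comm _ _)
    (fun a b c => dist_triangle _ _ _)
    (fun a b hab => dist_pos.2 (fun h => hab (Subtype.ext h)))
    (fun a b => (Lp_dist_rpow hp _ _).1) (fun a b => (Lp_dist_rpow hp _ _).2)
    (K := K) (by rw [hcard]; exact hK) hK0 (by rw [hcard]; exact hn) (θ := θ) hθ (by linarith)
    (N := N) hN0 (by
      rw [Fintype.card_prod, hcard]
      push_cast
      exact hN)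
  refine ⟨fun z => WithLp.toLp p (fun k => (c k) ^ (p.toReal)⁻¹ * z (ω k)), ?_⟩
  have hθ2 : 0 < 1 - 2 * θ := by linarith
  refine ⟨(1 - 2 * θ) ^ (p.toReal)⁻¹, by positivity, ?_⟩
  intro a ha b hb
  obtain ⟨h1, h2⟩ := h ⟨a, ha⟩ ⟨b, hb⟩
  simp only at h1 h2
  rw [PiLp.dist_eq_sum hq]
  have h3 : ∀ k, dist ((c k) ^ (p.toReal)⁻¹ * a (ω k)) ((c k) ^ (p.toReal)⁻¹ * b (ω k)) ^ p.toReal
      = c k * |a (ω k) - b (ω k)| ^ p.toReal := by
    intro k
    rw [Real.dist_eq, ← mul_sub, abs_mul, abs_of_nonneg (Real.rpow_nonneg (hc k) _),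
      Real.mul_rpow (Real.rpow_nonneg (hc k) _) (abs_nonneg _), ← Real.rpow_mul (hc k),
      inv_mul_cancel₀ hq.ne', Real.rpow_one]
  simp only [h3]
  set T := ∑ k, c k * |a (ω k) - b (ω k)| ^ p.toReal with hT
  have hd : 0 ≤ dist a b := dist_nonneg
  have hdq : (dist a b ^ p.toReal) ^ (p.toReal)⁻¹ = dist a b := by
    rw [← Real.rpow_mul hd, mul_inv_cancel₀ hq.ne', Real.rpow_one]
  have hdq0 : 0 ≤ dist a b ^ p.toReal := Real.rpow_nonneg hd _
  have hT0 : 0 ≤ T := le_trans (mul_nonneg hθ2.le hdq0) h1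
  rw [one_div]
  constructor
  · calc (1 - 2 * θ) ^ (p.toReal)⁻¹ * dist a b
        = ((1 - 2 * θ) * dist a b ^ p.toReal) ^ (p.toReal)⁻¹ := by
          rw [Real.mul_rpow hθ2.le hdq0, hdq]
      _ ≤ T ^ (p.toReal)⁻¹ := Real.rpow_le_rpow (mul_nonneg hθ2.le hdq0) h1 (by positivity)
  · have h4 : T ≤ D ^ p.toReal * (1 - 2 * θ) * dist a b ^ p.toReal :=
      h2.trans (mul_le_mul_of_nonneg_right hθD hdq0)
    have hD0 : 0 ≤ D := by linarith
    have hDq0 : 0 ≤ D ^ p.toReal := Real.rpow_nonneg hD0 _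
    calc T ^ (p.toReal)⁻¹ ≤ (D ^ p.toReal * (1 - 2 * θ) * dist a b ^ p.toReal) ^ (p.toReal)⁻¹ :=
          Real.rpow_le_rpow hT0 h4 (by positivity)
      _ = D * (1 - 2 * θ) ^ (p.toReal)⁻¹ * dist a b := by
          rw [Real.mul_rpow (mul_nonneg hDq0 hθ2.le) hdq0, Real.mul_rpow hDq0 hθ2.le, hdq,
            ← Real.rpow_mul hD0, mul_inv_cancel₀ hq.ne', Real.rpow_one]

/-- the choice of `θ` -/
theorem exists_theta {D q : ℝ} (hD : 1 < D) (hq : 0 < q) :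
    ∃ θ : ℝ, 0 < θ ∧ θ ≤ 1 / 4 ∧ 1 + 2 * θ ≤ D ^ q * (1 - 2 * θ) := by
  have h1 : 1 < D ^ q := Real.one_lt_rpow hD hq
  set A := D ^ q
  refine ⟨min (1 / 4) ((A - 1) / (2 * (A + 1))), ?_, min_le_left _ _, ?_⟩
  · apply lt_min
    · norm_num
    · apply div_pos <;> linarith
  · have h2 : min (1 / 4) ((A - 1) / (2 * (A + 1))) ≤ (A - 1) / (2 * (A + 1)) := min_le_right _ _
    rw [le_div_iff₀ (by linarith)] at h2
    nlinarith

/-- numerical bound for the number of samples -/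
theorem numeric {q θ : ℝ} (hq : 0 < q) (hθ : 0 < θ) {n : ℕ} (hn : 2 ≤ n) :
    2 * (4 * ((Nat.clog 2 n : ℕ) : ℝ)) ^ q * (n * (1 + Real.log n)) * Real.log (2 * (n * n)) ≤
      (18 * 12 ^ q) * n * Real.log n ^ (q + 2) := by
  have hn2 : (2 : ℝ) ≤ n := by exact_mod_cast hn
  have hl2 : (0.6931471803 : ℝ) < Real.log 2 := Real.log_two_gt_d9
  have hl : Real.log 2 ≤ Real.log n := Real.log_le_log (by norm_num) hn2
  have hlpos : 0 < Real.log n := by linarith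
  have hK : ((Nat.clog 2 n : ℕ) : ℝ) ≤ 3 * Real.log n := by
    have h1 : 2 ^ (Nat.clog 2 n).pred < n := Nat.pow_pred_clog_lt_self (by norm_num) (by omega)
    have h2 : ((2 : ℝ) ^ (Nat.clog 2 n).pred) < n := by exact_mod_cast h1
    have h3 := Real.log_lt_log (by positivity) h2
    rw [Real.log_pow] at h3
    have h4 : ((Nat.clog 2 n : ℕ) : ℝ) ≤ ((Nat.clog 2 n).pred : ℝ) + 1 := by
      have : Nat.clog 2 n ≤ (Nat.clog 2 n).pred + 1 := by
        rw [Nat.pred_eq_sub_one]; omega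
      exact_mod_cast this
    have h5 : (0 : ℝ) ≤ ((Nat.clog 2 n).pred : ℝ) := Nat.cast_nonneg _
    nlinarith
  have h1 : (4 * ((Nat.clog 2 n : ℕ) : ℝ)) ^ q ≤ 12 ^ q * Real.log n ^ q := by
    rw [← Real.mul_rpow (by norm_num) hlpos.le]
    apply Real.rpow_le_rpow (by positivity) _ hq.le
    linarith
  have h2 : 1 + Real.log n ≤ 3 * Real.log n := by linarith
  have h3 : Real.log (2 * (n * n)) ≤ 3 * Real.log n := by
    rw [Real.log_mul (by norm_num) (by positivity), Real.log_mul (by positivity) (by positivity)]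
    linarith
  have h3' : 0 ≤ Real.log (2 * ((n : ℝ) * n)) := Real.log_nonneg (by nlinarith)
  have h4 : Real.log n ^ (q + 2) = Real.log n ^ q * Real.log n ^ 2 := by
    rw [Real.rpow_add hlpos]
    norm_num
  rw [h4]
  have h5 : 0 ≤ 12 ^ q * Real.log n ^ q := by positivity
  calc 2 * (4 * ((Nat.clog 2 n : ℕ) : ℝ)) ^ q * (n * (1 + Real.log n)) * Real.log (2 * (n * n))
      ≤ 2 * (12 ^ q * Real.log n ^ q) * (n * (3 * Real.log n)) * (3 * Real.log n) := by gcongr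
    _ = _ := by ring

theorem main_bound (p : ℝ≥0∞) [hp1 : Fact (1 ≤ p)] (hp : p ≠ ⊤) (D : ℝ) (hD : 1 < D) :
    ∃ C : ℝ, 0 < C ∧ ∀ n : ℕ, 2 ≤ n → ∃ m : ℕ, DimSuffices.{u} p n D m ∧
      (m : ℝ) ≤ C * n * Real.log n ^ (p.toReal + 2) := by
  have hp0 : p ≠ 0 := (zero_lt_one.trans_le hp1.out).ne'
  have hq : 0 < p.toReal := ENNReal.toReal_pos hp0 hp
  obtain ⟨θ, hθ, hθ1, hθD⟩ := exists_theta hD hq
  have hl2 : (0.6931471803 : ℝ) < Real.log 2 := Real.log_two_gt_d9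
  refine ⟨(18 * 12 ^ p.toReal) / θ ^ 2 + 1 / Real.log 2 ^ (p.toReal + 2), by positivity, ?_⟩
  intro n hn
  have hn2 : (2 : ℝ) ≤ n := by exact_mod_cast hn
  have hl : Real.log 2 ≤ Real.log n := Real.log_le_log (by norm_num) hn2
  have hlpos : 0 < Real.log n := by linarith
  set B : ℝ := (18 * 12 ^ p.toReal) * n * Real.log n ^ (p.toReal + 2) with hB
  have hB0 : 0 < B := by positivity
  set N : ℕ := ⌈B / θ ^ 2⌉₊ with hNdef
  have hN0 : 0 < N := Nat.ceil_pos.2 (by positivity)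
  have hNle : B / θ ^ 2 ≤ N := Nat.le_ceil _
  have hNlt : (N : ℝ) < B / θ ^ 2 + 1 := Nat.ceil_lt_add_one (by positivity)
  refine ⟨N, dimSuffices_of hp hD hn (Nat.le_pow_clog (by norm_num) n)
    (Nat.clog_pos (by norm_num) (by omega)) hθ hθ1 hθD hN0 ?_, ?_⟩
  · refine (numeric hq hθ hn).trans ?_
    rw [← hB]
    rw [div_le_iff₀ (by positivity)] at hNle
    linarith
  · have h1 : 1 ≤ (1 / Real.log 2 ^ (p.toReal + 2)) * n * Real.log n ^ (p.toReal + 2) := by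
      have h2 : Real.log 2 ^ (p.toReal + 2) ≤ Real.log n ^ (p.toReal + 2) :=
        Real.rpow_le_rpow (by linarith) hl (by linarith)
      have h3 : 0 < Real.log 2 ^ (p.toReal + 2) := by positivity
      have h4 : 1 ≤ Real.log n ^ (p.toReal + 2) / Real.log 2 ^ (p.toReal + 2) := by
        rw [one_le_div h3]; exact h2
      calc (1 : ℝ) ≤ n * (Real.log n ^ (p.toReal + 2) / Real.log 2 ^ (p.toReal + 2)) := by
            nlinarith
        _ = _ := by ring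
    calc (N : ℝ) ≤ B / θ ^ 2 + 1 := hNlt.le
      _ ≤ B / θ ^ 2 + (1 / Real.log 2 ^ (p.toReal + 2)) * n * Real.log n ^ (p.toReal + 2) := by
          linarith
      _ = _ := by rw [hB]; ring

end Vale.Agent.P249
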