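import Mathlib

open Finset

namespace Vale.Agent.P249

/-- `∑ 1 / #{c : g c ≤ g b}` is at most the harmonic number. -/
theorem sum_inv_rank_le {α : Type*} [DecidableEq α] (g : α → ℝ) (T : Finset α) :
    ∑ b ∈ T, (1 : ℝ) / ((T.filter (fun c => g c ≤ g b)).card : ℝ) ≤ (harmonic T.card : ℝ) := by
  classical
  induction T using Finset.induction_on_max_value g with
  | empty => simp
  | insert a s ha hmax ih =>
    rw [Finset.sum_insert ha, Finset.card_insert_of_notMem ha, harmonic_succ]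
    have h1 : ((insert a s).filter (fun c => g c ≤ g a)) = insert a s := by
      apply Finset.filter_true_of_mem
      intro c hc
      rcases Finset.mem_insert.1 hc with rfl | hc
      · exact le_rfl
      · exact hmax c hc
    rw [h1, Finset.card_insert_of_notMem ha]
    have h2 : ∑ b ∈ s, (1 : ℝ) / (((insert a s).filter (fun c => g c ≤ g b)).card : ℝ) ≤
        ∑ b ∈ s, (1 : ℝ) / ((s.filter (fun c => g c ≤ g b)).card : ℝ) := by
      apply Finset.sum_le_sum
      intro b hb
      have h3 : 0 < (s.filter (fun c => g c ≤ g b)).card :=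
        Finset.card_pos.2 ⟨b, Finset.mem_filter.2 ⟨hb, le_rfl⟩⟩
      apply one_div_le_one_div_of_le
      · exact_mod_cast h3
      · exact_mod_cast Finset.card_le_card
          (Finset.filter_subset_filter _ (Finset.subset_insert a s))
    push_cast
    have h4 : (1 : ℝ) / ((s.card : ℝ) + 1) = ((s.card : ℝ) + 1)⁻¹ := one_div _
    rw [h4]
    linarith

section

variable {ι : Type*} [Fintype ι] [DecidableEq ι]

/-- the closed ball of radius `ρ` about `a` -/
noncomputable def ball (d : ι → ι → ℝ) (a : ι) (ρ : ℝ) : Finset ι :=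
  univ.filter (fun b => d a b ≤ ρ)

/-- the local energy at `a` -/
noncomputable def locEn (d : ι → ι → ℝ) (p : ℝ) (x : ι → ℝ) (a : ι) : ℝ :=
  ∑ b ∈ univ.filter (fun b => b ≠ a),
    |x a - x b| ^ p / (d a b ^ p * ((ball d a (d a b)).card : ℝ))

variable {d : ι → ι → ℝ} {p : ℝ}

omit [DecidableEq ι] in
theorem mem_ball {a b : ι} {ρ : ℝ} : b ∈ ball d a ρ ↔ d a b ≤ ρ := by
  simp [ball]

omit [DecidableEq ι] in
theorem ball_mono {a : ι} {ρ ρ' : ℝ} (h : ρ ≤ ρ') : ball d a ρ ⊆ ball d a ρ' := by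
  intro b hb
  rw [mem_ball] at hb ⊢
  exact hb.trans h

theorem locEn_nonneg (hd : ∀ a b, 0 ≤ d a b) (x : ι → ℝ) (a : ι) : 0 ≤ locEn d p x a := by
  apply Finset.sum_nonneg
  intro b _
  have := hd a b
  positivity

theorem star (hp : 0 < p) (hpos : ∀ a b, a ≠ b → 0 < d a b) (x : ι → ℝ) (a : ι) {R : ℝ}
    (hR : 0 < R) :
    ∑ b ∈ ball d a R, |x a - x b| ^ p ≤ ((ball d a R).card : ℝ) * R ^ p * locEn d p x a := by
  have h1 : ∀ b ∈ (ball d a R).filter (fun b => b ≠ a),
      |x a - x b| ^ p ≤ ((ball d a R).card : ℝ) * R ^ p *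
        (|x a - x b| ^ p / (d a b ^ p * ((ball d a (d a b)).card : ℝ))) := by
    intro b hb
    obtain ⟨hb1, hb2⟩ := Finset.mem_filter.1 hb
    have hd : 0 < d a b := hpos a b (Ne.symm hb2)
    have hc : 0 < ((ball d a (d a b)).card : ℝ) := by
      exact_mod_cast Finset.card_pos.2 ⟨b, mem_ball.2 le_rfl⟩
    have hle : d a b ≤ R := mem_ball.1 hb1
    have hc2 : ((ball d a (d a b)).card : ℝ) ≤ ((ball d a R).card : ℝ) := by
      exact_mod_cast Finset.card_le_card (ball_mono (d := d) (a := a) hle)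
    have hp2 : d a b ^ p ≤ R ^ p := Real.rpow_le_rpow hd.le hle hp.le
    have hdp : 0 < d a b ^ p := Real.rpow_pos_of_pos hd p
    rw [mul_div_assoc', le_div_iff₀ (by positivity)]
    have h0 : 0 ≤ |x a - x b| ^ p := by positivity
    calc |x a - x b| ^ p * (d a b ^ p * ((ball d a (d a b)).card : ℝ))
        ≤ |x a - x b| ^ p * (R ^ p * ((ball d a R).card : ℝ)) := by gcongr
      _ = _ := by ring
  have h2 : ∑ b ∈ ball d a R, |x a - x b| ^ p =
      ∑ b ∈ (ball d a R).filter (fun b => b ≠ a), |x a - x b| ^ p := by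
    symm
    apply Finset.sum_filter_of_ne
    intro b _ hb hba
    apply hb
    rw [hba, sub_self, abs_zero, Real.zero_rpow hp.ne']
  rw [h2]
  refine (Finset.sum_le_sum h1).trans ?_
  rw [← Finset.mul_sum]
  apply mul_le_mul_of_nonneg_left _ (by positivity)
  unfold locEn
  apply Finset.sum_le_sum_of_subset_of_nonneg
  · intro b hb
    exact Finset.mem_filter.2 ⟨Finset.mem_univ b, (Finset.mem_filter.1 hb).2⟩
  · intro b hb _
    have hd : 0 < d a b := hpos a b (Ne.symm (Finset.mem_filter.1 hb).2)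
    positivity

omit [DecidableEq ι] in
theorem growth (i : ι) (hii : ∀ a, d a a = 0) {r : ℝ} (hr : 0 < r) {K : ℕ}
    (hK : Fintype.card ι ≤ 2 ^ K) (hK0 : 0 < K) :
    ∃ m < K, (ball d i ((2 * ((m : ℝ) + 1) + 1) * r)).card ≤
      2 * (ball d i ((2 * (m : ℝ) + 1) * r)).card := by
  by_contra hcon
  push Not at hcon
  have key : ∀ m ≤ K, 2 ^ m ≤ (ball d i ((2 * (m : ℝ) + 1) * r)).card ∧
      (0 < m → 2 ^ m < (ball d i ((2 * (m : ℝ) + 1) * r)).card) := by
    intro m
    induction m with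
    | zero =>
      intro _
      refine ⟨?_, fun h => absurd h (lt_irrefl 0)⟩
      rw [pow_zero]
      apply Finset.card_pos.2
      refine ⟨i, mem_ball.2 ?_⟩
      rw [hii]
      positivity
    | succ m ih =>
      intro hm
      have h1 := (ih (by omega)).1
      have h2 := hcon m (by omega)
      push_cast
      have h3 : 2 ^ (m + 1) < (ball d i ((2 * ((m : ℝ) + 1) + 1) * r)).card := by
        calc 2 ^ (m + 1) = 2 * 2 ^ m := by ring
          _ ≤ 2 * (ball d i ((2 * (m : ℝ) + 1) * r)).card := by omega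
          _ < _ := h2
      exact ⟨h3.le, fun _ => h3⟩
  have h1 := (key K le_rfl).2 hK0
  have h2 : (ball d i ((2 * (K : ℝ) + 1) * r)).card ≤ Fintype.card ι := Finset.card_le_univ _
  omega

theorem add_rpow_le {u v p : ℝ} (hu : 0 ≤ u) (hv : 0 ≤ v) (hp : 0 < p) :
    (u + v) ^ p ≤ 2 ^ p * (u ^ p + v ^ p) := by
  have h1 : 0 ≤ u ^ p := Real.rpow_nonneg hu p
  have h2 : 0 ≤ v ^ p := Real.rpow_nonneg hv p
  have h3 : (0 : ℝ) ≤ 2 ^ p := by positivity
  rcases le_total u v with h | h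
  · calc (u + v) ^ p ≤ (2 * v) ^ p := Real.rpow_le_rpow (by positivity) (by linarith) hp.le
      _ = 2 ^ p * v ^ p := Real.mul_rpow (by norm_num) hv
      _ ≤ _ := by nlinarith
  · calc (u + v) ^ p ≤ (2 * u) ^ p := Real.rpow_le_rpow (by positivity) (by linarith) hp.le
      _ = 2 ^ p * u ^ p := Real.mul_rpow (by norm_num) hu
      _ ≤ _ := by nlinarith

/-- The total energy controls every difference, up to the factor `2 (4K)^p`. -/
theorem key_ineq (hp : 0 < p) (hii : ∀ a, d a a = 0) (hsym : ∀ a b, d a b = d b a)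
    (htri : ∀ a b c, d a c ≤ d a b + d b c) (hpos : ∀ a b, a ≠ b → 0 < d a b)
    {K : ℕ} (hK : Fintype.card ι ≤ 2 ^ K) (hK0 : 0 < K) (x : ι → ℝ) {i j : ι} (hij : i ≠ j) :
    |x i - x j| ^ p ≤ 2 * (4 * (K : ℝ)) ^ p * d i j ^ p * ∑ a, locEn d p x a := by
  have hr : 0 < d i j := hpos i j hij
  set r := d i j with hrdef
  obtain ⟨m, hmK, hm⟩ := growth (d := d) i hii hr hK hK0
  set R : ℝ := (2 * (m : ℝ) + 1) * r with hR
  set R' : ℝ := R + r with hR'
  have hR0 : 0 < R := by positivity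
  have hR'0 : 0 < R' := by positivity
  have hR'' : (2 * ((m : ℝ) + 1) + 1) * r = R' + r := by rw [hR', hR]; ring
  rw [hR''] at hm
  have hd0 : ∀ a b, 0 ≤ d a b := by
    intro a b
    rcases eq_or_ne a b with rfl | h
    · rw [hii]
    · exact (hpos a b h).le
  have hB1 : ball d i R ⊆ ball d j R' := by
    intro b hb
    rw [mem_ball] at hb ⊢
    have := htri j i b
    rw [hsym j i] at this
    linarith
  have hB2 : ball d j R' ⊆ ball d i (R' + r) := by
    intro b hb
    rw [mem_ball] at hb ⊢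
    have := htri i j b
    linarith
  set B := ball d i R with hB
  have hBpos : 0 < (B.card : ℝ) := by
    have : i ∈ B := by
      rw [hB, mem_ball, hii]
      exact hR0.le
    exact_mod_cast Finset.card_pos.2 ⟨i, this⟩
  have hcard : ((ball d j R').card : ℝ) ≤ 2 * (B.card : ℝ) := by
    exact_mod_cast (Finset.card_le_card hB2).trans hm
  have hEi : 0 ≤ locEn d p x i := locEn_nonneg hd0 x i
  have hEj : 0 ≤ locEn d p x j := locEn_nonneg hd0 x j
  have s1 := star hp hpos x i hR0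
  have s2 := star hp hpos x j hR'0
  have s3 : ∑ b ∈ B, |x j - x b| ^ p ≤ ∑ b ∈ ball d j R', |x j - x b| ^ p := by
    apply Finset.sum_le_sum_of_subset_of_nonneg hB1
    intro b _ _
    positivity
  have s4 : (B.card : ℝ) * |x i - x j| ^ p ≤
      2 ^ p * (∑ b ∈ B, |x i - x b| ^ p + ∑ b ∈ B, |x j - x b| ^ p) := by
    rw [← Finset.sum_add_distrib, Finset.mul_sum, ← nsmul_eq_mul, ← Finset.sum_const]
    apply Finset.sum_le_sum
    intro b _
    have h1 : |x i - x j| ≤ |x i - x b| + |x j - x b| := by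
      rw [abs_sub_comm (x j) (x b)]
      exact abs_sub_le (x i) (x b) (x j)
    exact (Real.rpow_le_rpow (abs_nonneg _) h1 hp.le).trans
      (add_rpow_le (abs_nonneg _) (abs_nonneg _) hp)
  have hRp : R ^ p ≤ R' ^ p := Real.rpow_le_rpow hR0.le (by linarith) hp.le
  have hR'p : 0 ≤ R' ^ p := by positivity
  have hRp0 : 0 ≤ R ^ p := by positivity
  have s5 : (B.card : ℝ) * |x i - x j| ^ p ≤
      (B.card : ℝ) * (2 * 2 ^ p * R' ^ p * (locEn d p x i + locEn d p x j)) := by
    have t1 : ∑ b ∈ B, |x i - x b| ^ p ≤ (B.card : ℝ) * R' ^ p * locEn d p x i := by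
      refine s1.trans ?_
      gcongr
    have t2 : ∑ b ∈ B, |x j - x b| ^ p ≤ (2 * (B.card : ℝ)) * R' ^ p * locEn d p x j := by
      refine s3.trans (s2.trans ?_)
      gcongr
    have t3 : (0 : ℝ) ≤ 2 ^ p := by positivity
    calc (B.card : ℝ) * |x i - x j| ^ p
        ≤ 2 ^ p * (∑ b ∈ B, |x i - x b| ^ p + ∑ b ∈ B, |x j - x b| ^ p) := s4
      _ ≤ 2 ^ p * ((B.card : ℝ) * R' ^ p * locEn d p x i +
          (2 * (B.card : ℝ)) * R' ^ p * locEn d p x j) := by gcongr
      _ ≤ 2 ^ p * ((2 * (B.card : ℝ)) * R' ^ p * locEn d p x i +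
          (2 * (B.card : ℝ)) * R' ^ p * locEn d p x j) := by
            gcongr
            linarith
      _ = _ := by ring
  have s6 : |x i - x j| ^ p ≤ 2 * 2 ^ p * R' ^ p * (locEn d p x i + locEn d p x j) :=
    le_of_mul_le_mul_left s5 hBpos
  have s7 : locEn d p x i + locEn d p x j ≤ ∑ a, locEn d p x a := by
    rw [← Finset.sum_pair (f := fun a => locEn d p x a) hij]
    apply Finset.sum_le_sum_of_subset_of_nonneg (Finset.subset_univ _)
    intro a _ _
    exact locEn_nonneg hd0 x a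
  have s8 : R' ≤ 2 * (K : ℝ) * r := by
    have : (m : ℝ) + 1 ≤ (K : ℝ) := by exact_mod_cast hmK
    rw [hR', hR]
    nlinarith
  have s9 : R' ^ p ≤ (2 * (K : ℝ)) ^ p * r ^ p := by
    rw [← Real.mul_rpow (by positivity) hr.le]
    exact Real.rpow_le_rpow hR'0.le s8 hp.le
  have s10 : (4 * (K : ℝ)) ^ p = 2 ^ p * (2 * (K : ℝ)) ^ p := by
    rw [← Real.mul_rpow (by norm_num) (by positivity)]
    congr 1
    ring
  have hsum0 : 0 ≤ ∑ a, locEn d p x a := Finset.sum_nonneg fun a _ => locEn_nonneg hd0 x a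
  calc |x i - x j| ^ p ≤ 2 * 2 ^ p * R' ^ p * (locEn d p x i + locEn d p x j) := s6
    _ ≤ 2 * 2 ^ p * ((2 * (K : ℝ)) ^ p * r ^ p) * ∑ a, locEn d p x a := by gcongr
    _ = _ := by rw [s10]; ring

/-- The total weight is at most `n (1 + log n)`. -/
theorem weight_sum_le (d : ι → ι → ℝ) :
    ∑ a : ι, ∑ b ∈ univ.filter (fun b => b ≠ a), (1 : ℝ) / ((ball d a (d a b)).card : ℝ) ≤
      (Fintype.card ι : ℝ) * (1 + Real.log (Fintype.card ι)) := by
  have h1 : ∀ a : ι, ∑ b ∈ univ.filter (fun b => b ≠ a),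
      (1 : ℝ) / ((ball d a (d a b)).card : ℝ) ≤ 1 + Real.log (Fintype.card ι) := by
    intro a
    have h2 := sum_inv_rank_le (fun b => d a b) (univ : Finset ι)
    have h3 : ∑ b ∈ univ.filter (fun b => b ≠ a), (1 : ℝ) / ((ball d a (d a b)).card : ℝ) ≤
        ∑ b : ι, (1 : ℝ) / ((ball d a (d a b)).card : ℝ) := by
      apply Finset.sum_le_sum_of_subset_of_nonneg (Finset.subset_univ _)
      intro b _ _
      positivity
    have h4 := harmonic_le_one_add_log (Fintype.card ι)
    have h5 : (univ : Finset ι).card = Fintype.card ι := Finset.card_univ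
    rw [h5] at h2
    have h6 : ∑ b : ι, (1 : ℝ) / ((ball d a (d a b)).card : ℝ) ≤
        ((harmonic (Fintype.card ι) : ℚ) : ℝ) := h2
    linarith
  calc _ ≤ ∑ _a : ι, (1 + Real.log (Fintype.card ι)) := Finset.sum_le_sum fun a _ => h1 a
    _ = _ := by rw [Finset.sum_const, Finset.card_univ, nsmul_eq_mul]

end

end Vale.Agent.P249
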